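import Vale.Agent.P203.Cox0.Long
import Vale.Agent.P203.Apt.Convex
import Vale.Agent.P203.Vin.Vinberg

/-! P203, block KK-ROOT (helper985's plan): the root-theoretic part of the antipodal case (KK).

`cs : CoxeterSystem M W`, `U : Finset B` with `parab cs U` finite and `U` connected,
`φ : W → B → ℝ` a nonnegative function on the vertices of the Coxeter complex of `W_U` which is
convex across every wall with slack `h ≥ 0`.  `(w, t)` is a vertex with
`(w⁻¹ e_s)_t = - k B(e_x, e_s)` (`k > 0`), and `φ w t = 0 = φ (s_x w) t`.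

* `slack_eq_zero` (R0) : `h = 0` on `U`.
* `form_eq_zero`  (R1) : a lower bound `(w'⁻¹ (grad φ 1 - e))_t' ≤ φ w' t'` implies `B(e_x, e) = 0`.
* `value_eq_zero` (R2) : if all positive kinks are at roots `u e_r` with `(u e_r)_x = 0` then
  `φ 1 x = 0`. -/

set_option linter.all false

namespace Vale.Agent.P203.KKR

open Vale.Agent.P203.Cox Vale.Agent.P203.Apt

variable {B : Type*} {W : Type*} [Group W] {M : CoxeterMatrix B} {cs : CoxeterSystem M W}

/-- the kink of `φ` at the wall between `w` and `w s_i` -/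
noncomputable def kink (M : CoxeterMatrix B) (cs : CoxeterSystem M W) (U : Finset B)
    (φ : W → B → ℝ) (w : W) (i : B) : ℝ :=
  φ (w * cs.simple i) i - φ w i + ∑ j ∈ U, gram M i j * φ w j

/-- convex with slack `h`, and nonnegative -/
structure IsSl (cs : CoxeterSystem M W) (U : Finset B) (h : B → ℝ) (φ : W → B → ℝ) : Prop where
  inv : ∀ w ∈ parab cs (U : Set B), ∀ i ∈ U, ∀ j ∈ U, i ≠ j → φ (w * cs.simple i) j = φ w j
  slack : ∀ w ∈ parab cs (U : Set B), ∀ i ∈ U, h i ≤ kink M cs U φ w i
  h_nonneg : ∀ i ∈ U, 0 ≤ h i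
  nonneg : ∀ w ∈ parab cs (U : Set B), ∀ t ∈ U, 0 ≤ φ w t

variable {U : Finset B} {h : B → ℝ} {φ : W → B → ℝ}

theorem IsSl.isConv (H : IsSl cs U h φ) : IsConv cs U φ where
  inv := H.inv
  wall w hw i hi := (H.h_nonneg i hi).trans (H.slack w hw i hi)

theorem kink_nonneg (H : IsConv cs U φ) {w : W} (hw : w ∈ parab cs (U : Set B)) {i : B}
    (hi : i ∈ U) : 0 ≤ kink M cs U φ w i := H.wall w hw i hi

/-- the functional of the vertex `(w, t)` in direction `- α_x` -/
theorem vtx_eq {w : W} {t x : B} {k : ℝ}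
    (hy : ∀ s ∈ U, (act cs w⁻¹ (Finsupp.single s 1)) t = - k * gram M x s) {v : VSp B}
    (hv : Supp U v) : vtx cs w t v = - k * form M (Finsupp.single x 1) v := by
  rw [vtx_apply]
  conv_lhs => rw [hv.sum, map_sum, Finsupp.finsetSum_apply]
  rw [Apt.form_single_left hv, Finset.mul_sum]
  refine Finset.sum_congr rfl fun s hs => ?_
  rw [map_smul, Finsupp.coe_smul, Pi.smul_apply, smul_eq_mul, hy s hs]
  ring

theorem vtx_mirror {w : W} {t x : B} {k : ℝ} (hx : x ∈ U)
    (hy : ∀ s ∈ U, (act cs w⁻¹ (Finsupp.single s 1)) t = - k * gram M x s) {v : VSp B}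
    (hv : Supp U v) :
    vtx cs (cs.simple x * w) t v = k * form M (Finsupp.single x 1) v := by
  have e : vtx cs (cs.simple x * w) t v = vtx cs w t (act cs (cs.simple x) v) := by
    rw [vtx_apply, vtx_apply, mul_inv_rev, cs.inv_simple, act_mul_apply]
  rw [e, vtx_eq hy (hv.act (simple_mem_parab (by exact_mod_cast hx)))]
  have e2 : form M (Finsupp.single x 1) (act cs (cs.simple x) v) =
      - form M (Finsupp.single x 1) v := by
    have := form_act (cs := cs) (cs.simple x) (Finsupp.single x 1) v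
    rw [act_simple_self, map_neg, LinearMap.neg_apply] at this
    linarith
  rw [e2]; ring

/-- (R0) -/
theorem slack_eq_zero (hc : Vin.Conn M U) (hfin : Finite (parab cs (U : Set B)))
    (H : IsSl cs U h φ) {w : W} (hw : w ∈ parab cs (U : Set B)) {t x : B} (ht : t ∈ U)
    (hx : x ∈ U) {k : ℝ}
    (hy : ∀ s ∈ U, (act cs w⁻¹ (Finsupp.single s 1)) t = - k * gram M x s)
    (h1 : φ w t = 0) (h2 : φ (cs.simple x * w) t = 0) : ∀ r ∈ U, h r = 0 := by
  obtain ⟨v, hv1, hv2⟩ := Vin.finite_iff.1 hfin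
  obtain ⟨g, hg, -⟩ := Vin.BU_surj hv1 hv2 h
  have hg0 : ∀ r ∈ U, 0 ≤ g r := Vin.nonneg_of_BU_nonneg hv1 hv2 fun r hr => by
    rw [hg r hr]; exact H.h_nonneg r hr
  -- `φ - g` is convex
  have HC : IsConv cs U (fun w t => φ w t - g t) := by
    refine ⟨fun w hw i hi j hj hij => ?_, fun w hw i hi => ?_⟩
    · simp only [H.inv w hw i hi j hj hij]
    · have hk := H.slack w hw i hi
      unfold kink at hk
      have hb : ∑ j ∈ U, gram M i j * g j = h i := hg i hi
      have e : ∑ j ∈ U, gram M i j * (φ w j - g j) = ∑ j ∈ U, gram M i j * φ w j - h i := by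
        rw [← hb, ← Finset.sum_sub_distrib]
        exact Finset.sum_congr rfl fun j _ => by ring
      rw [e]
      linarith
  have hsx : cs.simple x * w ∈ parab cs (U : Set B) :=
    mul_mem (simple_mem_parab (by exact_mod_cast hx)) hw
  have a1 := vtx_grad_le HC hw (one_mem _) ht
  have a2 := vtx_grad_le HC hsx (one_mem _) ht
  rw [act_one_apply] at a1 a2
  rw [vtx_eq hy (grad_supp _ _), h1] at a1
  rw [vtx_mirror hx hy (grad_supp _ _), h2] at a2
  have hgt : g t = 0 := le_antisymm (by linarith) (hg0 t ht)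
  have hz : ∀ r ∈ U, g r = 0 := by
    by_contra hcon
    push Not at hcon
    have := Vin.pos_of_BU_nonneg hc hv1 hv2 (x := g) (fun r hr => by
      rw [hg r hr]; exact H.h_nonneg r hr) hcon t ht
    linarith
  intro r hr
  rw [← hg r hr]
  exact Finset.sum_eq_zero fun s hs => by rw [hz s hs, mul_zero]

/-- (R1) -/
theorem form_eq_zero (H : IsConv cs U φ) {w : W} (hw : w ∈ parab cs (U : Set B)) {t x : B}
    (ht : t ∈ U) (hx : x ∈ U) {k : ℝ} (hk : 0 < k)
    (hy : ∀ s ∈ U, (act cs w⁻¹ (Finsupp.single s 1)) t = - k * gram M x s)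
    (h1 : φ w t = 0) (h2 : φ (cs.simple x * w) t = 0) {e : VSp B} (he : Supp U e)
    (hle : ∀ w' ∈ parab cs (U : Set B), ∀ t' ∈ U,
      (act cs w'⁻¹ (grad U φ 1 - e)) t' ≤ φ w' t') :
    form M (Finsupp.single x 1) e = 0 := by
  have hsx : cs.simple x * w ∈ parab cs (U : Set B) :=
    mul_mem (simple_mem_parab (by exact_mod_cast hx)) hw
  have hs : Supp U (grad U φ 1 - e) := fun i hi => by
    rw [Finsupp.sub_apply, grad_supp φ 1 i hi, he i hi, sub_zero]
  have a1 := vtx_grad_le H hw (one_mem _) ht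
  have a2 := vtx_grad_le H hsx (one_mem _) ht
  rw [act_one_apply] at a1 a2
  rw [vtx_eq hy (grad_supp _ _), h1] at a1
  rw [vtx_mirror hx hy (grad_supp _ _), h2] at a2
  have b1 := hle w hw t ht
  have b2 := hle _ hsx t ht
  rw [← vtx_apply, vtx_eq hy hs, h1] at b1
  rw [← vtx_apply, vtx_mirror hx hy hs, h2] at b2
  rw [map_sub] at b1 b2
  have c1 : form M (Finsupp.single x 1) (grad U φ 1) = 0 := by
    apply le_antisymm
    · by_contra hcon; push Not at hcon
      have := mul_pos hk hcon; linarith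
    · by_contra hcon; push Not at hcon
      have := mul_pos_of_neg_of_neg (neg_neg_of_pos hk) hcon; linarith
  rw [c1] at b1 b2
  apply le_antisymm
  · by_contra hcon; push Not at hcon
    have := mul_pos hk hcon; linarith
  · by_contra hcon; push Not at hcon
    have := mul_pos_of_neg_of_neg (neg_neg_of_pos hk) hcon; linarith

/-- the coordinate `x` of `u (grad φ u)` does not change if all kinks are at roots with
coordinate `0` at `x` -/
theorem grad_coord (H : IsConv cs U φ) {x : B}
    (hk : ∀ u ∈ parab cs (U : Set B), ∀ r ∈ U, cs.length u < cs.length (u * cs.simple r) →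
      0 < kink M cs U φ u r → (act cs u (Finsupp.single r 1)) x = 0) :
    ∀ u ∈ parab cs (U : Set B), (act cs u (grad U φ u)) x = (grad U φ 1) x := by
  intro u hu
  obtain ⟨n, hn⟩ : ∃ n, n = cs.length u := ⟨_, rfl⟩
  induction n using Nat.strong_induction_on generalizing u with
  | _ n ih =>
  by_cases hu1 : u = 1
  · subst hu1; rw [act_one_apply]
  obtain ⟨i, hi, hlt⟩ := exists_desc_parab hu hu1
  have hi' : i ∈ U := by exact_mod_cast hi
  set v := u * cs.simple i with hv
  have hvm : v ∈ parab cs (U : Set B) := mul_mem hu (simple_mem_parab hi)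
  have e : u = v * cs.simple i := by rw [hv, cs.simple_mul_simple_cancel_right]
  have h1 := ih (cs.length v) (by omega) v hvm rfl
  have h2 := act_simple_grad H hvm hi'
  have h3 : grad U φ (v * cs.simple i) = act cs (cs.simple i) (grad U φ v) +
      kink M cs U φ v i • Finsupp.single i 1 := by
    rw [h2]; unfold kink; abel
  rw [e, h3, act_mul_apply, map_add, map_smul, act_simple_self, smul_neg, map_add, map_neg,
    map_smul, ← act_mul_apply (cs.simple i), cs.simple_mul_simple_self, act_one_apply,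
    Finsupp.add_apply, Finsupp.neg_apply, Finsupp.smul_apply, smul_eq_mul, h1]
  have hlt' : cs.length v < cs.length (v * cs.simple i) := by rw [← e]; exact hlt
  rcases (kink_nonneg H hvm hi').lt_or_eq with h4 | h4
  · rw [hk v hvm i hi' hlt' h4, mul_zero]; ring
  · rw [← h4]; ring

/-- (R2) -/
theorem value_eq_zero (hfin : Finite (parab cs (U : Set B))) (H : IsConv cs U φ)
    (hnn : ∀ w ∈ parab cs (U : Set B), ∀ t ∈ U, 0 ≤ φ w t) {x : B} (hx : x ∈ U)
    (hk : ∀ u ∈ parab cs (U : Set B), ∀ r ∈ U, cs.length u < cs.length (u * cs.simple r) →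
      0 < kink M cs U φ u r → (act cs u (Finsupp.single r 1)) x = 0) : φ 1 x = 0 := by
  have h1 := grad_coord H hk (w0 cs (U : Set B)) w0_mem
  rw [grad_apply φ 1 hx] at h1
  have h2 : (act cs (w0 cs (U : Set B)) (grad U φ (w0 cs (U : Set B)))) x =
      ∑ s ∈ U, -(φ (w0 cs (U : Set B)) s * (Finsupp.single (opp cs (U : Set B) s) (1 : ℝ)) x) := by
    conv_lhs => rw [(grad_supp (U := U) φ (w0 cs (U : Set B))).sum, map_sum,
      Finsupp.finsetSum_apply]
    refine Finset.sum_congr rfl fun s hs => ?_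
    rw [map_smul, act_w0_single (by exact_mod_cast hs), Finsupp.smul_apply, Finsupp.neg_apply,
      smul_eq_mul, grad_apply φ _ hs]
    ring
  have h3 : (act cs (w0 cs (U : Set B)) (grad U φ (w0 cs (U : Set B)))) x ≤ 0 := by
    rw [h2]
    refine Finset.sum_nonpos fun s hs => ?_
    have a := hnn _ (w0_mem (cs := cs) (T := (U : Set B))) s hs
    have b := NN_single (opp cs (U : Set B) s) x
    have := mul_nonneg a b
    linarith
  rw [h1] at h3
  exact le_antisymm h3 (hnn 1 (one_mem _) x hx)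

end Vale.Agent.P203.KKR
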